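import Vale.Agent.Lib.P100.NegFinal
import Vale.Agent.Lib.P100.CutOffPoly0
import Vale.Agent.Lib.P100.ClosedForm

/-!
# P100: equal negative weights in every dimension `n ≥ 3` with `n + c > 4`.

The versions of `NegAlg`, `NegFinal`, `NegMain` without the hypothesis `n ≥ 5`: the term `w ξ` is
treated with one more parameter `θ` and the cut-off uses that the weight `|x|^c u^a v^a` vanishes at
the origin. New in dimension four (and three, when `A < -1`).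
-/

open scoped BigOperators
open MeasureTheory Filter Topology Set Metric Module InnerProductSpace Laplacian

set_option linter.unusedSimpArgs false

noncomputable section

namespace Vale.Agent.Lib.P100

/-- The cross terms of `w ξ`, with a parameter. -/
lemma wxi_lower0 {a e θ x y w tx ty : ℝ} (ha : 0 ≤ a) (hθ : 0 < θ) (he : 0 < e - a / θ)
    (hx : 0 ≤ x) (hy : 0 ≤ y)
    (hw : 0 ≤ w) (h1 : 0 ≤ θ ^ 2 * x + w + 2 * θ * tx) (h2 : 0 ≤ θ ^ 2 * y + w + 2 * θ * ty) :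
    (e - a / θ) / 2 * w ^ 2 - (a * θ) ^ 2 / (4 * (e - a / θ)) * (x ^ 2 + y ^ 2)
      ≤ w * (a * tx + a * ty) + e * w ^ 2 := by
  obtain ⟨d, hd⟩ : ∃ d : ℝ, d = e - a / θ := ⟨_, rfl⟩
  rw [← hd] at he ⊢
  have hed : e = d + a / θ := by rw [hd]; ring
  obtain ⟨a', ha'⟩ : ∃ a' : ℝ, a' = a * θ := ⟨_, rfl⟩
  rw [← ha']
  have haw : 0 ≤ a / θ * w := by positivity
  have h3 : 0 ≤ a / θ * w * (θ ^ 2 * x + w + 2 * θ * tx) := mul_nonneg haw h1
  have h4 : 0 ≤ a / θ * w * (θ ^ 2 * y + w + 2 * θ * ty) := mul_nonneg haw h2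
  have e3 : a / θ * w * (θ ^ 2 * x + w + 2 * θ * tx)
      = a' * (x * w) + a / θ * w ^ 2 + 2 * (w * (a * tx)) := by
    rw [ha']; field_simp
  have e4 : a / θ * w * (θ ^ 2 * y + w + 2 * θ * ty)
      = a' * (y * w) + a / θ * w ^ 2 + 2 * (w * (a * ty)) := by
    rw [ha']; field_simp
  rw [e3] at h3
  rw [e4] at h4
  have hee : d / 4 * w ^ 2 + a' ^ 2 / (4 * d) * x ^ 2 - a' / 2 * (x * w) ≥ 0 := by
    have : d / 4 * w ^ 2 + a' ^ 2 / (4 * d) * x ^ 2 - a' / 2 * (x * w)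
        = (d * w - a' * x) ^ 2 / (4 * d) := by
      field_simp
      ring
    rw [this]
    positivity
  have hee2 : d / 4 * w ^ 2 + a' ^ 2 / (4 * d) * y ^ 2 - a' / 2 * (y * w) ≥ 0 := by
    have : d / 4 * w ^ 2 + a' ^ 2 / (4 * d) * y ^ 2 - a' / 2 * (y * w)
        = (d * w - a' * y) ^ 2 / (4 * d) := by
      field_simp
      ring
    rw [this]
    positivity
  rw [hed]
  nlinarith

lemma exists_theta {a e : ℝ} (ha0 : 0 ≤ a) (he : 0 < e) : ∃ θ : ℝ, 0 < θ ∧ 0 < e - a / θ := by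
  refine ⟨1 + 2 * a / e, by positivity, ?_⟩
  have e1 : a / (1 + 2 * a / e) = a * e / (e + 2 * a) := by
    field_simp
  have e2 : a * e / (e + 2 * a) ≤ e / 2 := by
    rw [div_le_div_iff₀ (by positivity) (by norm_num)]
    nlinarith [sq_nonneg e, mul_nonneg ha0 he.le]
  rw [e1]
  linarith

/-- **The certificate for the negative weight system, in terms of its parameters.** -/
theorem ncert_of_params0 {n p q a c Aw g E1 F1 E2 F2 Γ η β r γ m v1 v2 v1' v2' μ c0 θ : ℝ}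
    (hr : 0 < r) (hg : 0 < g) (hγ : 0 ≤ γ) (hF1 : 0 < F1) (hη : 0 ≤ η)
    (ha : 0 ≤ a) (hθ : 0 < θ) (he : 0 < n - 4 + c - a / θ)
    (hm : -(1 - 1 / n) * Aw - (2 / n) * β - Γ * (Aw + c) = 2 * γ * m)
    (hv1 : -(E1 * c) + β * (a - 2) - (r * (1 - 1 / n)) / 2 * ((a - 2 - 2 * E1) * (c + 2 * β))
      = 2 * γ * m * v1)
    (hv2 : -(F1 * c) + β * a - (r * (1 - 1 / n)) / 2 * ((a - 2 * F1) * (c + 2 * β))
      = 2 * γ * m * v2)
    (hv1' : -(E2 * c) + β * (a - 2) - (r * (1 - 1 / n)) / 2 * ((a - 2 - 2 * E2) * (c + 2 * β))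
      = 2 * γ * m * v1')
    (hv2' : -(F2 * c) + β * a - (r * (1 - 1 / n)) / 2 * ((a - 2 * F2) * (c + 2 * β))
      = 2 * γ * m * v2')
    (hF : γ * m ^ 2 ≤ β * (n - 2 + c) - (r * (1 - 1 / n)) / 4 * (c + 2 * β) ^ 2)
    (h1A : 0 < pA (r * (1 - 1 / n)) a E1 - γ * v1 ^ 2 - μ)
    (h1B : (pB (r * (1 - 1 / n)) a E1 F1 - 2 * γ * v1 * v2) ^ 2
      ≤ 4 * (pA (r * (1 - 1 / n)) a E1 - γ * v1 ^ 2 - μ) * (pC (r * (1 - 1 / n)) a F1 - γ * v2 ^ 2))
    (h2A : 0 < pA (r * (1 - 1 / n)) a E2 - γ * v1' ^ 2 - μ)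
    (h2B : (pB (r * (1 - 1 / n)) a E2 F2 - 2 * γ * v1' * v2') ^ 2
      ≤ 4 * (pA (r * (1 - 1 / n)) a E2 - γ * v1' ^ 2 - μ) * (pC (r * (1 - 1 / n)) a F2 - γ * v2' ^ 2))
    (hL1A : 0 < (1 + 2 / n) * E1 - Γ * (a - 2) - 2 * γ * v1)
    (hL1 : ((2 / n) * F1 - (1 - 1 / n) * p - Γ * (a + p) - 2 * γ * v2) ^ 2
      ≤ 4 * ((1 + 2 / n) * E1 - Γ * (a - 2) - 2 * γ * v1) * (g * F2))
    (hL2 : (g * ((2 / n) * F2 - (1 - 1 / n) * q - Γ * (a + q) - 2 * γ * v2')) ^ 2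
      ≤ 4 * F1 * (g * ((1 + 2 / n) * E2 - Γ * (a - 2) - 2 * γ * v1')))
    (hc1 : c0 ≤ 1 - 1 / r) (hc2 : c0 ≤ g * (1 - 1 / r))
    (hc3 : c0 + η * ((a * θ) ^ 2 / (4 * (n - 4 + c - a / θ))) ≤ μ)
    (hc4 : c0 + η * ((a * θ) ^ 2 / (4 * (n - 4 + c - a / θ))) ≤ g * μ)
    (hc5 : c0 ≤ Γ - γ) (hc6 : c0 ≤ g * (Γ - γ))
    (hc7 : c0 ≤ η * ((n - 4 + c - a / θ) / 2)) (A : NAtoms) (hA : A.Realizable n) :
    c0 * A.EW ≤ ∑ k, coefN g E1 F1 E2 F2 Γ η β k * NAtoms.DD n p q a c Aw A k := by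
  rw [QN_expand]
  have hb := hA.base.base
  have hx := hb.x_nonneg
  have hy := hb.y_nonneg
  have hs := hb.s_pos
  have ht := hb.t_pos
  have hw := hA.base.w_nonneg
  have hUU : 0 ≤ A.UU := by
    have := hb.gram_nonneg ![1, 0, 0, 0, 0]
    simpa [Fin.sum_univ_five, Atoms.gram] using this
  have hVV : 0 ≤ A.VV := by
    have := hb.gram_nonneg ![0, 1, 0, 0, 0]
    simpa [Fin.sum_univ_five, Atoms.gram] using this
  have tU := tensU_slack hA hr (a - 2 - 2 * E1) (a - 2 * F1) (c + 2 * β)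
  have tV := mul_le_mul_of_nonneg_left (tensV_slack hA hr (a - 2 - 2 * E2) (a - 2 * F2) (c + 2 * β)) hg.le
  have sq1 := square_s (s := A.s) hγ (hA.csX v1 v2 m)
  have sq2 := mul_nonneg hg.le (square_s (s := A.t) hγ (hA.csY v1' v2' m))
  have f1 := mul_nonneg hx (form_nn hb h1A h1B)
  have f2 := mul_nonneg (mul_nonneg hg.le hy) (form_nn' hb h2A h2B)
  have b1 := mul_nonneg hs.le (form_nn hb hL1A hL1)
  have b2 := mul_nonneg ht.le (form_nn hb hF1 hL2)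
  have hFF := sub_nonneg.mpr hF
  have F1' := mul_nonneg (mul_nonneg hx hw) hFF
  have F2' := mul_nonneg (mul_nonneg (mul_nonneg hg.le hy) hw) hFF
  have e1 := congrArg (fun w => w * (A.s * A.tx)) hm
  have e2 := congrArg (fun w => w * (g * (A.t * A.ty))) hm
  have e3 := congrArg (fun w => w * (A.x * A.tx)) hv1
  have e4 := congrArg (fun w => w * (A.x * A.ty)) hv2
  have e5 := congrArg (fun w => w * (g * (A.y * A.ty))) hv1'
  have e6 := congrArg (fun w => w * (g * (A.y * A.tx))) hv2'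
  -- the `w ξ` part
  have t1 : 0 ≤ θ ^ 2 * A.x + A.w + 2 * θ * A.tx := by
    have h := hA.base.form3 θ 0 1
    linarith only [h]
  have t2 : 0 ≤ θ ^ 2 * A.y + A.w + 2 * θ * A.ty := by
    have h := hA.base.form3 0 θ 1
    linarith only [h]
  have wl := wxi_lower0 (e := n - 4 + c) (x := A.x) (y := A.y) ha hθ he hx hy hw t1 t2
  have wl2 := mul_le_mul_of_nonneg_left wl hη
  have c1 := mul_le_mul_of_nonneg_right hc1 hUU
  have c2 := mul_le_mul_of_nonneg_right hc2 hVV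
  have c3 := mul_le_mul_of_nonneg_right hc3 (sq_nonneg A.x)
  have c4 := mul_le_mul_of_nonneg_right hc4 (sq_nonneg A.y)
  have c5 := mul_le_mul_of_nonneg_right hc5 (sq_nonneg A.s)
  have c6 := mul_le_mul_of_nonneg_right hc6 (sq_nonneg A.t)
  have c7 := mul_le_mul_of_nonneg_right hc7 (sq_nonneg A.w)
  simp only [pA, pB, pC] at f1 f2 b1 b2
  have eEW : A.EW = A.UU + A.VV + A.x ^ 2 + A.y ^ 2 + A.s ^ 2 + A.t ^ 2 + A.w ^ 2 := rfl
  rw [eEW]
  linear_combination tU + tV + sq1 + sq2 + f1 + f2 + b1 + b2 + F1' + F2' + wl2 + c1 + c2 + c3 + c4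
    + c5 + c6 + c7 - e1 - e2 - e3 - e4 - e5 - e6



/-- The choice of the numbers, once `δ` is small. -/
lemma ncert_at0 {n p q a Aw g E1 F1 E2 F2 γ0 κ S ρ τ δ θ : ℝ}
    (hn0 : 0 < n) (hθ : 0 < θ) (hd : 0 < n - 4 + -Aw - a / θ)
    (hA : Aw < 0) (ha0 : 0 ≤ a) (hg : 0 < g) (hF1 : 0 < F1)
    (hκd : κ = 1 - 1 / n) (hSd : S = 1 - 2 / n) (hκ : 0 < κ) (hS : 0 < S) (hγ0pos : 0 < γ0)
    (hbase : Aw ^ 2 * S ^ 2 / (4 * γ0) = (-Aw / 2) * (n - 2 + -Aw) - κ * Aw ^ 2)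
    (hρ : ρ = S ^ 2 / (4 * γ0 * (γ0 + 1) * κ)) (hτ : τ = (1 / 2 - (1 + ρ * δ) * κ) / S)
    (hδ : 0 < δ) (hδ1 : δ ≤ 1)
    (h11 : 0 < pA ((1 + ρ * δ) * κ + 4 * (γ0 + δ) * τ ^ 2) a E1 - δ)
    (h12 : pB ((1 + ρ * δ) * κ + 4 * (γ0 + δ) * τ ^ 2) a E1 F1 ^ 2
      < 4 * (pA ((1 + ρ * δ) * κ + 4 * (γ0 + δ) * τ ^ 2) a E1 - δ)
        * pC ((1 + ρ * δ) * κ + 4 * (γ0 + δ) * τ ^ 2) a F1)
    (h21 : 0 < pA ((1 + ρ * δ) * κ + 4 * (γ0 + δ) * τ ^ 2) a E2 - δ)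
    (h22 : pB ((1 + ρ * δ) * κ + 4 * (γ0 + δ) * τ ^ 2) a E2 F2 ^ 2
      < 4 * (pA ((1 + ρ * δ) * κ + 4 * (γ0 + δ) * τ ^ 2) a E2 - δ)
        * pC ((1 + ρ * δ) * κ + 4 * (γ0 + δ) * τ ^ 2) a F2)
    (h5 : 0 < (1 + 2 / n) * E1 - (γ0 + 2 * δ) * (a - 2) - 2 * (γ0 + δ) * (τ * (a - 2 - 2 * E1)))
    (h6 : ((2 / n) * F1 - (1 - 1 / n) * p - (γ0 + 2 * δ) * (a + p) - 2 * (γ0 + δ) * (τ * (a - 2 * F1))) ^ 2
      < 4 * ((1 + 2 / n) * E1 - (γ0 + 2 * δ) * (a - 2) - 2 * (γ0 + δ) * (τ * (a - 2 - 2 * E1)))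
        * (g * F2))
    (h7 : (g * ((2 / n) * F2 - (1 - 1 / n) * q - (γ0 + 2 * δ) * (a + q)
        - 2 * (γ0 + δ) * (τ * (a - 2 * F2)))) ^ 2
      < 4 * F1 * (g * ((1 + 2 / n) * E2 - (γ0 + 2 * δ) * (a - 2)
        - 2 * (γ0 + δ) * (τ * (a - 2 - 2 * E2))))) :
    ∃ Γ η c0 : ℝ, 0 < c0 ∧ ∀ A : NAtoms, A.Realizable n →
      c0 * A.EW ≤ ∑ k, coefN g E1 F1 E2 F2 Γ η (-Aw / 2) k * NAtoms.DD n p q a (-Aw) Aw A k := by
  have hρ0 : 0 < ρ := by rw [hρ]; positivity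
  have hr : 0 < 1 + ρ * δ := by positivity
  have hr1 : 0 < 1 - 1 / (1 + ρ * δ) := by
    have h0 := mul_pos hρ0 hδ
    have : 1 / (1 + ρ * δ) < 1 := by
      rw [div_lt_one hr]
      linarith only [h0]
    linarith only [this]
  obtain ⟨lam, hlam⟩ : ∃ lam : ℝ, lam = (a * θ) ^ 2 / (4 * (n - 4 + -Aw - a / θ)) := ⟨_, rfl⟩
  have hlam0 : 0 ≤ lam := by rw [hlam]; positivity
  obtain ⟨b, hb⟩ : ∃ b : ℝ, b = min δ (g * δ) / 2 := ⟨_, rfl⟩
  have hb0 : 0 < b := by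
    rw [hb]
    have := lt_min hδ (mul_pos hg hδ)
    linarith only [this]
  have hb1 : b + b ≤ δ := by
    have := min_le_left δ (g * δ)
    rw [hb]; linarith only [this]
  have hb2 : b + b ≤ g * δ := by
    have := min_le_right δ (g * δ)
    rw [hb]; linarith only [this]
  obtain ⟨η, hη⟩ : ∃ η : ℝ, η = b / (lam + 1) := ⟨_, rfl⟩
  have hη0 : 0 < η := by rw [hη]; positivity
  have hηlam : η * lam ≤ b := by
    rw [hη, div_mul_eq_mul_div, div_le_iff₀ (by linarith only [hlam0])]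
    nlinarith only [hb0, hlam0, mul_nonneg hb0.le hlam0]
  have hcd : 0 < η * ((n - 4 + -Aw - a / θ) / 2) := by positivity
  obtain ⟨c0, hc0⟩ : ∃ c0 : ℝ, c0 = min (1 - 1 / (1 + ρ * δ)) (min (g * (1 - 1 / (1 + ρ * δ))) (min b
      (min (g * δ) (min δ (η * ((n - 4 + -Aw - a / θ) / 2)))))) := ⟨_, rfl⟩
  have hc1 : c0 ≤ 1 - 1 / (1 + ρ * δ) := by rw [hc0]; exact min_le_left _ _
  have hc2 : c0 ≤ min (g * (1 - 1 / (1 + ρ * δ))) (min b
      (min (g * δ) (min δ (η * ((n - 4 + -Aw - a / θ) / 2))))) := by rw [hc0]; exact min_le_right _ _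
  have hc3 := hc2.trans (min_le_right _ _)
  have hc4 := hc3.trans (min_le_right _ _)
  have hc5 := hc4.trans (min_le_right _ _)
  have c2 := hc2.trans (min_le_left _ _)
  have cb := hc3.trans (min_le_left _ _)
  have cg := hc4.trans (min_le_left _ _)
  have cd := hc5.trans (min_le_left _ _)
  have cη := hc5.trans (min_le_right _ _)
  have hc0pos : 0 < c0 := by
    rw [hc0]
    exact lt_min hr1 (lt_min (mul_pos hg hr1) (lt_min hb0 (lt_min (mul_pos hg hδ) (lt_min hδ hcd))))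
  refine ⟨γ0 + 2 * δ, η, c0, hc0pos, ?_⟩
  intro A hAr
  have hγpos : 0 < γ0 + δ := by linarith only [hγ0pos, hδ]
  have hSτ : S * τ = 1 / 2 - (1 + ρ * δ) * κ := by
    rw [hτ]
    field_simp
  have hm2 : 2 * (γ0 + δ) * (-Aw * S / (2 * (γ0 + δ))) = -Aw * S := by
    field_simp
  refine ncert_of_params0 (θ := θ) (r := 1 + ρ * δ) (γ := γ0 + δ) (m := -Aw * S / (2 * (γ0 + δ)))
    (v1 := τ * (a - 2 - 2 * E1)) (v2 := τ * (a - 2 * F1))
    (v1' := τ * (a - 2 - 2 * E2)) (v2' := τ * (a - 2 * F2)) (μ := δ)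
    hr hg hγpos.le hF1 hη0.le ha0 hθ hd ?_ ?_ ?_ ?_ ?_ ?_ ?_ ?_ ?_ ?_ h5 ?_ ?_ hc1 c2 ?_ ?_ ?_ ?_ cη A hAr
  · -- hm
    rw [hm2, hSd]
    field_simp
    ring
  · rw [← hκd, hm2]
    linear_combination (Aw * (a - 2 - 2 * E1)) * hSτ
  · rw [← hκd, hm2]
    linear_combination (Aw * (a - 2 * F1)) * hSτ
  · rw [← hκd, hm2]
    linear_combination (Aw * (a - 2 - 2 * E2)) * hSτ
  · rw [← hκd, hm2]
    linear_combination (Aw * (a - 2 * F2)) * hSτ
  · rw [← hκd]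
    rw [hρ]
    exact hF_defect hγ0pos hκ hδ hδ1 hbase
  · rw [← hκd, pA_shift]; exact h11
  · rw [← hκd, pA_shift, pB_shift, pC_shift]; exact h12.le
  · rw [← hκd, pA_shift]; exact h21
  · rw [← hκd, pA_shift, pB_shift, pC_shift]; exact h22.le
  · exact h6.le
  · exact h7.le
  · rw [← hlam]; linarith only [cb, hηlam, hb1]
  · rw [← hlam]; linarith only [cb, hηlam, hb2]
  · linarith only [cd]
  · have e : g * (γ0 + 2 * δ - (γ0 + δ)) = g * δ := by ring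
    rw [e]; exact cg


open Filter Topology in
/-- **The certificate exists as soon as the closed form conditions hold strictly in the effective
dimension `n' = 2 (n + A) / (2 + A)`.** -/
theorem exists_ncert0 {n n' p q a Aw g E1 F1 E2 F2 : ℝ} (hn : 2 < n) (hnc : 0 < n - 4 + -Aw) (hA : Aw < 0) (hA2 : -2 < Aw)
    (hn' : n' = 2 * (n + Aw) / (2 + Aw)) (ha0 : 0 ≤ a) (hg : 0 < g)
    (hE1 : 0 < E1) (hE2 : 0 < E2) (hF1 : 0 < F1)
    (h1A : 0 < pA (1 - 1 / n') a E1)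
    (h1B : pB (1 - 1 / n') a E1 F1 ^ 2 < 4 * pA (1 - 1 / n') a E1 * pC (1 - 1 / n') a F1)
    (h2A : 0 < pA (1 - 1 / n') a E2)
    (h2B : pB (1 - 1 / n') a E2 F2 ^ 2 < 4 * pA (1 - 1 / n') a E2 * pC (1 - 1 / n') a F2)
    (hL1 : ((2 / n') * F1 - (1 - 1 / n') * p) ^ 2 < 4 * ((1 + 2 / n') * E1) * (g * F2))
    (hL2 : (g * ((2 / n') * F2 - (1 - 1 / n') * q)) ^ 2 < 4 * F1 * (g * ((1 + 2 / n') * E2))) :
    ∃ Γ η c0 : ℝ, 0 < c0 ∧ ∀ A : NAtoms, A.Realizable n →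
      c0 * A.EW ≤ ∑ k, coefN g E1 F1 E2 F2 Γ η (-Aw / 2) k * NAtoms.DD n p q a (-Aw) Aw A k := by
  have hn0 : (0 : ℝ) < n := by linarith
  have h2w : 0 < 2 + Aw := by linarith
  have hnA : 0 < n + Aw := by linarith
  have hn'0 : 0 < n' := by rw [hn']; positivity
  have hn2 : 0 < n - 2 := by linarith
  obtain ⟨γ0, hγ0⟩ : ∃ γ0 : ℝ, γ0 = 1 / n - 1 / n' := ⟨_, rfl⟩
  have hγ0f : γ0 = -Aw * (n - 2) / (2 * n * (n + Aw)) := by
    rw [hγ0, hn']
    field_simp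
    ring
  have hγ0pos : 0 < γ0 := by
    rw [hγ0f]
    exact div_pos (mul_pos (neg_pos.2 hA) hn2) (by positivity)
  obtain ⟨κ, hκd⟩ : ∃ κ : ℝ, κ = 1 - 1 / n := ⟨_, rfl⟩
  have hκ : 0 < κ := by
    rw [hκd]
    have : 1 / n < 1 := by rw [div_lt_one hn0]; linarith
    linarith
  obtain ⟨S, hSd⟩ : ∃ S : ℝ, S = 1 - 2 / n := ⟨_, rfl⟩
  have hS : 0 < S := by
    rw [hSd]
    have : 2 / n < 1 := by rw [div_lt_one hn0]; linarith
    linarith
  have hbase : Aw ^ 2 * S ^ 2 / (4 * γ0) = (-Aw / 2) * (n - 2 + -Aw) - κ * Aw ^ 2 := by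
    have hA0 : Aw ≠ 0 := hA.ne
    have hn20 : n - 2 ≠ 0 := hn2.ne'
    rw [hγ0f, hSd, hκd]
    field_simp
    ring
  obtain ⟨ρ, hρ⟩ : ∃ ρ : ℝ, ρ = S ^ 2 / (4 * γ0 * (γ0 + 1) * κ) := ⟨_, rfl⟩
  -- the functions of `δ`
  obtain ⟨τ, hτ⟩ : ∃ τ : ℝ → ℝ, τ = fun δ => (1 / 2 - (1 + ρ * δ) * κ) / S := ⟨_, rfl⟩
  obtain ⟨Kt, hKt⟩ : ∃ Kt : ℝ → ℝ, Kt = fun δ => (1 + ρ * δ) * κ + 4 * (γ0 + δ) * τ δ ^ 2 := ⟨_, rfl⟩
  have hτc : Continuous τ := by rw [hτ]; fun_prop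
  have hKtc : Continuous Kt := by rw [hKt]; fun_prop
  have hτ0 : τ 0 = -1 / 2 := by
    rw [hτ]
    simp only [mul_zero, add_zero, one_mul]
    rw [hκd, hSd]
    have : 1 - 2 / n ≠ 0 := by rw [← hSd]; exact hS.ne'
    field_simp
    ring
  have hKt0 : Kt 0 = 1 - 1 / n' := by
    rw [hKt]
    simp only [mul_zero, add_zero, one_mul]
    rw [hτ0, hκd, hγ0]
    ring
  have b1 := ev_block hKtc hKt0 h1A h1B
  have b2 := ev_block hKtc hKt0 h2A h2B
  -- the linear forms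
  have ev5 : ∀ᶠ δ in 𝓝 (0 : ℝ),
      0 < (1 + 2 / n) * E1 - (γ0 + 2 * δ) * (a - 2) - 2 * (γ0 + δ) * (τ δ * (a - 2 - 2 * E1)) := by
    apply ContinuousAt.eventually_lt continuousAt_const
    · exact Continuous.continuousAt (by fun_prop)
    · simp only [mul_zero, add_zero]
      rw [hτ0]
      have e : (1 + 2 / n) * E1 - γ0 * (a - 2) - 2 * γ0 * (-1 / 2 * (a - 2 - 2 * E1))
          = (1 + 2 / n') * E1 := by rw [hγ0]; ring
      rw [e]
      positivity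
  have ev6 : ∀ᶠ δ in 𝓝 (0 : ℝ),
      ((2 / n) * F1 - (1 - 1 / n) * p - (γ0 + 2 * δ) * (a + p) - 2 * (γ0 + δ) * (τ δ * (a - 2 * F1))) ^ 2
      < 4 * ((1 + 2 / n) * E1 - (γ0 + 2 * δ) * (a - 2) - 2 * (γ0 + δ) * (τ δ * (a - 2 - 2 * E1)))
        * (g * F2) := by
    apply ContinuousAt.eventually_lt
    · exact Continuous.continuousAt (by fun_prop)
    · exact Continuous.continuousAt (by fun_prop)
    · simp only [mul_zero, add_zero]
      rw [hτ0]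
      have e : (1 + 2 / n) * E1 - γ0 * (a - 2) - 2 * γ0 * (-1 / 2 * (a - 2 - 2 * E1))
          = (1 + 2 / n') * E1 := by rw [hγ0]; ring
      have e2 : (2 / n) * F1 - (1 - 1 / n) * p - γ0 * (a + p) - 2 * γ0 * (-1 / 2 * (a - 2 * F1))
          = (2 / n') * F1 - (1 - 1 / n') * p := by rw [hγ0]; ring
      rw [e, e2]
      exact hL1
  have ev7 : ∀ᶠ δ in 𝓝 (0 : ℝ),
      (g * ((2 / n) * F2 - (1 - 1 / n) * q - (γ0 + 2 * δ) * (a + q)
        - 2 * (γ0 + δ) * (τ δ * (a - 2 * F2)))) ^ 2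
      < 4 * F1 * (g * ((1 + 2 / n) * E2 - (γ0 + 2 * δ) * (a - 2)
        - 2 * (γ0 + δ) * (τ δ * (a - 2 - 2 * E2)))) := by
    apply ContinuousAt.eventually_lt
    · exact Continuous.continuousAt (by fun_prop)
    · exact Continuous.continuousAt (by fun_prop)
    · simp only [mul_zero, add_zero]
      rw [hτ0]
      have e : (1 + 2 / n) * E2 - γ0 * (a - 2) - 2 * γ0 * (-1 / 2 * (a - 2 - 2 * E2))
          = (1 + 2 / n') * E2 := by rw [hγ0]; ring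
      have e2 : (2 / n) * F2 - (1 - 1 / n) * q - γ0 * (a + q) - 2 * γ0 * (-1 / 2 * (a - 2 * F2))
          = (2 / n') * F2 - (1 - 1 / n') * q := by rw [hγ0]; ring
      rw [e, e2]
      exact hL2
  have ev1 : ∀ᶠ δ in 𝓝 (0 : ℝ), δ ≤ 1 := ge_mem_nhds (by norm_num)
  have ev := b1.and (b2.and (ev5.and (ev6.and (ev7.and ev1))))
  have ev' : ∀ᶠ δ in 𝓝[>] (0 : ℝ), 0 < δ := eventually_mem_nhdsWithin
  obtain ⟨δ, ⟨⟨h11, h12⟩, ⟨h21, h22⟩, h5, h6, h7, hδ1⟩, hδ⟩ :=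
    ((ev.filter_mono nhdsWithin_le_nhds).and ev').exists
  have hKtδ : Kt δ = (1 + ρ * δ) * κ + 4 * (γ0 + δ) * τ δ ^ 2 := by rw [hKt]
  rw [hKtδ] at h11 h12 h21 h22
  have hτδ : τ δ = (1 / 2 - (1 + ρ * δ) * κ) / S := by rw [hτ]
  obtain ⟨θ, hθ, hd⟩ := exists_theta ha0 hnc
  exact ncert_at0 hn0 hθ hd hA ha0 hg hF1 hκd hSd hκ hS hγ0pos hbase hρ hτδ hδ hδ1 h11 h12 h21 h22
    h5 h6 h7


variable {n : ℕ}

/-- **Certificate implies nonexistence for the system with equal weights `Aw`**, with the weight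
`|x|^c u^a v^a`, in the literal class of the problem. -/
theorem no_solution_of_ncert0 (hn3 : 3 ≤ n) {p q a c Aw lam mu c0 : ℝ} {co : Fin 11 → ℝ}
    (hcert : ∀ A : NAtoms, A.Realizable n → c0 * A.EW ≤ ∑ k, co k * NAtoms.DD n p q a c Aw A k)
    (hc0 : 0 < c0) (hc : 0 ≤ c)
    (ha : a = mu * q - lam) (hb : a = lam * p - mu) (hlam : 0 ≤ lam) (hmu : 0 ≤ mu)
    (hκ : 0 ≤ c - Aw * (lam + mu))
    (hD : (n : ℝ) < 2 * (lam + mu) + 4 - (c - Aw * (lam + mu)))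
    (hnc : 4 < (n : ℝ) + c) (hDpos : 0 < lam + mu)
    {u v : Eu n → ℝ} (hucont : Continuous u) (hvcont : Continuous v)
    (hupos : ∀ x, 0 < u x) (hvpos : ∀ x, 0 < v x)
    (hu : ContDiffOn ℝ 2 u {0}ᶜ) (hv : ContDiffOn ℝ 2 v {0}ᶜ)
    (hpdeU : ∀ x, x ≠ 0 → ∑ i, Hf u i i x = - (‖x‖ ^ Aw * v x ^ p))
    (hpdeV : ∀ x, x ≠ 0 → ∑ i, Hf v i i x = - (‖x‖ ^ Aw * u x ^ q)) : False := by
  have hn4R : (3 : ℝ) ≤ n := by exact_mod_cast hn3
  have hn : (n : ℝ) ≠ 0 := by linarith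
  obtain ⟨Ω, hΩdef⟩ : ∃ Ω : Set (Eu n), Ω = {0}ᶜ := ⟨_, rfl⟩
  have hΩ : IsOpen Ω := by rw [hΩdef]; exact isOpen_compl_singleton
  rw [← hΩdef] at hu hv
  have hΩne : ∀ x ∈ Ω, x ≠ 0 := fun x hx => by rwa [hΩdef] at hx
  have hneΩ : ∀ x : Eu n, x ≠ 0 → x ∈ Ω := fun x hx => by rwa [hΩdef]
  have hLoc : ∀ x ∈ Ω, LocW u v Aw Aw p q x := fun x hx =>
    ⟨hu.contDiffAt (hΩ.mem_nhds hx), hv.contDiffAt (hΩ.mem_nhds hx), hupos x, hvpos x,
      hΩne x hx, hpdeU x (hΩne x hx), hpdeV x (hΩne x hx), hn⟩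
  have huposΩ : ∀ x ∈ Ω, 0 < u x := fun x _ => hupos x
  have hvposΩ : ∀ x ∈ Ω, 0 < v x := fun x _ => hvpos x
  -- the weight
  have hWfcont : Continuous (Wf u v a a) :=
    (hucont.rpow_const fun x => Or.inl (hupos x).ne').mul
      (hvcont.rpow_const fun x => Or.inl (hvpos x).ne')
  have hWfpos : ∀ x, 0 < Wf u v a a x := fun x =>
    mul_pos (Real.rpow_pos_of_pos (hupos x) a) (Real.rpow_pos_of_pos (hvpos x) a)
  have hNc : ContinuousOn (fun y : Eu n => ‖y‖ ^ c) Ω := (contDiffOn_normpow hΩne c).continuousOn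
  have hWc : ContinuousOn (Wt u v a c) Ω := hNc.mul hWfcont.continuousOn
  have hWpos : ∀ x, x ≠ 0 → 0 < Wt u v a c x := fun x hx =>
    mul_pos (Real.rpow_pos_of_pos (norm_pos_iff.2 hx) c) (hWfpos x)
  obtain ⟨Wm, hWm⟩ := (isCompact_closedBall (0 : Eu n) 1).bddAbove_image hWfcont.continuousOn
  have hWm' : ∀ x : Eu n, x ≠ 0 → ‖x‖ ≤ 1 → Wt u v a c x ≤ Wm * ‖x‖ ^ c := fun x _ hx => by
    have h1 : Wf u v a a x ≤ Wm := hWm ⟨x, by simpa using hx, rfl⟩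
    have h2 : 0 ≤ ‖x‖ ^ c := Real.rpow_nonneg (norm_nonneg _) _
    have h3 := mul_le_mul_of_nonneg_left h1 h2
    simp only [Wt]
    linarith
  have hSpos : ∀ x : Eu n, x ≠ 0 → 0 < Sr Aw p v x / u x := fun x hx =>
    div_pos (mul_pos (Real.rpow_pos_of_pos (norm_pos_iff.2 hx) _)
      (Real.rpow_pos_of_pos (hvpos x) p)) (hupos x)
  have hTpos : ∀ x : Eu n, x ≠ 0 → 0 < Sr Aw q u x / v x := fun x hx =>
    div_pos (mul_pos (Real.rpow_pos_of_pos (norm_pos_iff.2 hx) _)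
      (Real.rpow_pos_of_pos (hupos x) q)) (hvpos x)
  have hwpos : ∀ x : Eu n, x ≠ 0 → 0 < dot (fun i => Xi i x) (fun i => Xi i x) := fun x hx => by
    rw [dot_Xi x hx]
    have : 0 < ‖x‖ := norm_pos_iff.2 hx
    positivity
  have hreal : ∀ x ∈ Ω, NAtoms.Realizable n (natAt u v Aw p q x) := by
    intro x hx
    have hJ := (hLoc x hx).jet a a
    exact natomsOf_realizable (by linarith) hJ.Usymm hJ.Vsymm hJ.trU hJ.trV (hSpos x (hΩne x hx))
      (hTpos x (hΩne x hx))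
  have hfu : ContinuousOn (Sr Aw p v) Ω := (contDiffOn_Sr hΩne hv hvposΩ Aw p).continuousOn
  have hfv : ContinuousOn (Sr Aw q u) Ω := (contDiffOn_Sr hΩne hu huposΩ Aw q).continuousOn
  have hU1 : ∀ i j, ContinuousOn (Ug u (Sr Aw p v) i j) Ω :=
    contOn_Ug hΩ hu huposΩ hn hfu
  have hV1 : ∀ i j, ContinuousOn (Ug v (Sr Aw q u) i j) Ω :=
    contOn_Ug hΩ hv hvposΩ hn hfv
  have hX1 : ∀ i, ContinuousOn (Xf u i) Ω := fun i => (contDiffOn_Xf hΩ hu huposΩ i).continuousOn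
  have hY1 : ∀ i, ContinuousOn (Xf v i) Ω := fun i => (contDiffOn_Xf hΩ hv hvposΩ i).continuousOn
  have hZ1 : ∀ i, ContinuousOn (Xi (n := n) i) Ω := fun i => (contDiffOn_Xi hΩne i).continuousOn
  have hs1 : ContinuousOn (fun y => Sr Aw p v y / u y) Ω :=
    hfu.div hu.continuousOn fun x hx => (hupos x).ne'
  have ht1 : ContinuousOn (fun y => Sr Aw q u y / v y) Ω :=
    hfv.div hv.continuousOn fun x hx => (hvpos x).ne'
  have hip : ∀ {A B : Fin n → Fin n → Eu n → ℝ}, (∀ i j, ContinuousOn (A i j) Ω) →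
      (∀ i j, ContinuousOn (B i j) Ω) →
      ContinuousOn (fun x => ip (fun i j => A i j x) (fun i j => B i j x)) Ω :=
    fun hA hB => continuousOn_finsetSum _ fun i _ => continuousOn_finsetSum _ fun j _ =>
      (hA i j).mul (hB i j)
  have hBB : ∀ {A : Fin n → Fin n → Eu n → ℝ} {P R : Fin n → Eu n → ℝ},
      (∀ i j, ContinuousOn (A i j) Ω) → (∀ i, ContinuousOn (P i) Ω) → (∀ i, ContinuousOn (R i) Ω) →
      ContinuousOn (fun x => BB (fun i j => A i j x) (fun i => P i x) (fun i => R i x)) Ω :=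
    fun hA hP hR => continuousOn_finsetSum _ fun i _ => continuousOn_finsetSum _ fun j _ =>
      (hA i j).mul ((hP i).mul (hR j))
  have hdot : ∀ {P R : Fin n → Eu n → ℝ}, (∀ i, ContinuousOn (P i) Ω) →
      (∀ i, ContinuousOn (R i) Ω) → ContinuousOn (fun x => dot (fun i => P i x) (fun i => R i x)) Ω :=
    fun hP hR => continuousOn_finsetSum _ fun i _ => (hP i).mul (hR i)
  have a1 := hip hU1 hU1
  have a2 := hip hU1 hV1
  have a3 := hip hV1 hV1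
  have a4 := hBB hU1 hX1 hX1
  have a5 := hBB hU1 hX1 hY1
  have a6 := hBB hU1 hY1 hY1
  have a7 := hBB hV1 hX1 hX1
  have a8 := hBB hV1 hX1 hY1
  have a9 := hBB hV1 hY1 hY1
  have a10 := hdot hX1 hX1
  have a11 := hdot hX1 hY1
  have a12 := hdot hY1 hY1
  have a15 := hdot hX1 hZ1
  have a16 := hdot hY1 hZ1
  have a17 := hdot hZ1 hZ1
  have a18 := hBB hU1 hX1 hZ1
  have a19 := hBB hV1 hY1 hZ1
  have hDc : ∀ c' k, ContinuousOn (fun x => NAtoms.DD n p q a c' Aw (natAt u v Aw p q x) k) Ω :=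
    fun c' k => continuousOn_ND_aux a1 a2 a3 a4 a5 a6 a7 a8 a9 a10 a11 a12 hs1 ht1 a15 a16 a17 a18
      a19 n p q a c' Aw k
  have hEc : ContinuousOn (fun x => (natAt u v Aw p q x).EW) Ω :=
    ((((((a1.add a3).add (a10.pow 2)).add (a12.pow 2)).add (hs1.pow 2)).add (ht1.pow 2))).add
      (a17.pow 2)
  have hE0 : ∀ x, 0 ≤ (natAt u v Aw p q x).EW := fun x => EW_nonneg
  -- the field
  obtain ⟨Z, hZdef⟩ : ∃ Z : Fin n → Eu n → ℝ, Z = fun i y =>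
      Wt u v a c y * ∑ k, co k * NFlds u v Aw p q k i y := ⟨_, rfl⟩
  have hFc := contOn_NFlds (Aw := Aw) (p := p) (q := q) hΩ hΩne hu hv huposΩ hvposΩ hn
  have hZc : ∀ i, ContinuousOn (Z i) Ω := by
    intro i
    rw [hZdef]
    exact hWc.mul (continuousOn_finsetSum _ fun k _ => continuousOn_const.mul (hFc k i))
  have hZb : ∀ i x, x ≠ 0 → |Z i x| ≤ (∑ k, |co k|) *
      (Wt u v a c x * (natAt u v Aw p q x).EW ^ (3 / 4 : ℝ)) := by
    intro i x hx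
    rw [hZdef]
    simp only
    rw [abs_mul, abs_of_pos (hWpos x hx)]
    have h1 : |∑ k, co k * NFlds u v Aw p q k i x| ≤
        (∑ k, |co k|) * (natAt u v Aw p q x).EW ^ (3 / 4 : ℝ) := by
      refine (Finset.abs_sum_le_sum_abs _ _).trans ?_
      rw [Finset.sum_mul]
      refine Finset.sum_le_sum fun k _ => ?_
      rw [abs_mul]
      exact mul_le_mul_of_nonneg_left (abs_NF_le k i x) (abs_nonneg _)
    have h2 := mul_le_mul_of_nonneg_left h1 (hWpos x hx).le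
    linarith
  have hWE : ∀ x, x ≠ 0 → Wt u v a c x ≤ 1 * ‖x‖ ^ (c - Aw * (lam + mu)) *
      (natAt u v Aw p q x).EW ^ ((lam + mu) / 2) := by
    intro x hx
    rw [one_mul, Wt_eq_stw hx (hupos x) (hvpos x) ha hb]
    have h1 := stw_pow_le (U := fun i j => Ug u (Sr Aw p v) i j x)
      (V := fun i j => Ug v (Sr Aw q u) i j x) (X := fun i => Xf u i x) (Y := fun i => Xf v i x)
      (hSpos x hx) (hTpos x hx) (hwpos x hx) hlam hmu le_rfl
    rw [Real.rpow_zero, mul_one, add_zero] at h1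
    have h2 : 0 ≤ ‖x‖ ^ (c - Aw * (lam + mu)) := Real.rpow_nonneg (norm_nonneg _) _
    have h3 := mul_le_mul_of_nonneg_right h1 h2
    have e : (natAt u v Aw p q x).EW = (watAt u v Aw Aw p q x).EW := rfl
    rw [e]
    simp only [watAt]
    linarith
  -- the weak inequality
  have hweak : ∀ φ : Eu n → ℝ, ContDiff ℝ 1 φ → HasCompactSupport φ → (∀ x, 0 ≤ φ x) →
      0 ∉ tsupport φ →
      c0 * ∫ x, φ x * (Wt u v a c x * (natAt u v Aw p q x).EW) ≤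
        - ∑ i, ∫ x, fderiv ℝ φ x (ee i) * Z i x := by
    intro φ hφ hφc hφ0 h0
    have hφΩ : tsupport φ ⊆ Ω := by
      intro y hy
      refine hneΩ y ?_
      rintro rfl
      exact h0 hy
    have hdφ : ∀ i, Continuous (pd i φ) := fun i =>
      (hφ.continuous_fderiv one_ne_zero).clm_apply continuous_const
    have hdφs : ∀ i, HasCompactSupport (pd i φ) := fun i => hφc.fderiv_apply (𝕜 := ℝ) (ee i)
    have hdφΩ : ∀ i, tsupport (pd i φ) ⊆ Ω := fun i =>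
      (tsupport_fderiv_apply_subset ℝ (ee i)).trans hφΩ
    have hint : ∀ k i, Integrable fun x => pd i φ x * (Wt u v a c x * NFlds u v Aw p q k i x) := by
      intro k i
      have := integrable_mul_of_tsupport hΩ (hWc.mul (hFc k i)) (hdφ i) (hdφs i) (hdφΩ i)
      exact this.congr (Eventually.of_forall fun x => by simp only [Pi.mul_apply]; ring)
    have h1 : ∀ i, ∫ x, fderiv ℝ φ x (ee i) * Z i x =
        ∑ k, co k * ∫ x, pd i φ x * (Wt u v a c x * NFlds u v Aw p q k i x) := by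
      intro i
      simp_rw [← integral_const_mul]
      rw [← integral_finsetSum _ (fun k _ => (hint k i).const_mul _)]
      refine integral_congr_ae (Eventually.of_forall fun x => ?_)
      rw [hZdef]
      show fderiv ℝ φ x (ee i) * (Wt u v a c x * ∑ k, co k * NFlds u v Aw p q k i x) =
        ∑ k, co k * (pd i φ x * (Wt u v a c x * NFlds u v Aw p q k i x))
      rw [Finset.mul_sum, Finset.mul_sum]
      refine Finset.sum_congr rfl fun k _ => ?_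
      simp only [pd]
      ring
    simp_rw [h1]
    rw [Finset.sum_comm]
    simp_rw [← Finset.mul_sum]
    simp_rw [weak_NFlds_c hΩ hΩne a c hu hv hLoc hn hFc hWfcont.continuousOn (hDc 0) hφ hφc hφΩ]
    have hintD : ∀ k, Integrable fun x =>
        φ x * (Wt u v a c x * NAtoms.DD n p q a c Aw (natAt u v Aw p q x) k) := by
      intro k
      have := integrable_mul_of_tsupport hΩ (hWc.mul (hDc c k)) hφ.continuous hφc hφΩ
      exact this.congr (Eventually.of_forall fun x => mul_comm _ _)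
    have hintE : Integrable fun x => φ x * (Wt u v a c x * (natAt u v Aw p q x).EW) := by
      have := integrable_mul_of_tsupport hΩ (hWc.mul hEc) hφ.continuous hφc hφΩ
      exact this.congr (Eventually.of_forall fun x => mul_comm _ _)
    have h2 : - ∑ k, co k * - ∫ x, φ x * (Wt u v a c x * NAtoms.DD n p q a c Aw (natAt u v Aw p q x) k) =
        ∫ x, φ x * (Wt u v a c x * ∑ k, co k * NAtoms.DD n p q a c Aw (natAt u v Aw p q x) k) := by
      simp only [mul_neg, Finset.sum_neg_distrib, neg_neg]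
      simp_rw [← integral_const_mul]
      rw [← integral_finsetSum _ (fun k _ => (hintD k).const_mul _)]
      refine integral_congr_ae (Eventually.of_forall fun x => ?_)
      show ∑ k, co k * (φ x * (Wt u v a c x * NAtoms.DD n p q a c Aw (natAt u v Aw p q x) k)) =
        φ x * (Wt u v a c x * ∑ k, co k * NAtoms.DD n p q a c Aw (natAt u v Aw p q x) k)
      rw [Finset.mul_sum, Finset.mul_sum]
      refine Finset.sum_congr rfl fun k _ => ?_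
      ring
    rw [h2, ← integral_const_mul]
    refine integral_mono (hintE.const_mul _) ?_ ?_
    · have hQc : ContinuousOn (fun x => ∑ k, co k * NAtoms.DD n p q a c Aw (natAt u v Aw p q x) k) Ω :=
        continuousOn_finsetSum Finset.univ fun k _ => continuousOn_const.mul (hDc c k)
      have := integrable_mul_of_tsupport hΩ (hWc.mul hQc) hφ.continuous hφc hφΩ
      exact this.congr (Eventually.of_forall fun x => mul_comm _ _)
    · intro x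
      by_cases hx : x ∈ Ω
      · have h3 := hcert _ (hreal x hx)
        have h4 : 0 ≤ φ x * Wt u v a c x := mul_nonneg (hφ0 x) (hWpos x (hΩne x hx)).le
        have h5 := mul_le_mul_of_nonneg_left h3 h4
        show c0 * (φ x * (Wt u v a c x * (natAt u v Aw p q x).EW)) ≤
          φ x * (Wt u v a c x * ∑ k, co k * NAtoms.DD n p q a c Aw (natAt u v Aw p q x) k)
        linarith
      · have h0' : φ x = 0 := image_eq_zero_of_notMem_tsupport (fun h => hx (hφΩ h))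
        show c0 * (φ x * (Wt u v a c x * (natAt u v Aw p q x).EW)) ≤
          φ x * (Wt u v a c x * ∑ k, co k * NAtoms.DD n p q a c Aw (natAt u v Aw p q x) k)
        simp [h0']
  have hfr : finrank ℝ (Eu n) = n := finrank_euclideanSpace_fin
  refine cutoff_false_poly0 (V := Eu n) (fun i : Fin n => ee i) Z (Wt u v a c)
    (fun x => (natAt u v Aw p q x).EW) (c0 := c0) (C := ∑ k, |co k|) (K := 1)
    (D := lam + mu) (κ := c - Aw * (lam + mu)) (Wm := Wm) (e0 := c)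
    ?_ ?_ ?_ hWpos ?_ hc0 ?_ zero_le_one hDpos hκ hc hWm' ?_ ?_ ?_ hZb hWE hweak
  · intro i
    rw [← hΩdef]
    exact hZc i
  · rw [← hΩdef]
    exact hWc
  · rw [← hΩdef]
    exact hEc
  · exact fun x _ => hE0 x
  · exact Finset.sum_nonneg fun k _ => abs_nonneg _
  · rw [hfr]
    omega
  · rw [hfr]
    exact hnc
  · rw [hfr]
    exact hD

/-- The same, with Mathlib's Laplacian. -/
theorem no_solution_of_ncert0_lap (hn3 : 3 ≤ n) {p q a c Aw lam mu c0 : ℝ} {co : Fin 11 → ℝ}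
    (hcert : ∀ A : NAtoms, A.Realizable n → c0 * A.EW ≤ ∑ k, co k * NAtoms.DD n p q a c Aw A k)
    (hc0 : 0 < c0) (hc : 0 ≤ c)
    (ha : a = mu * q - lam) (hb : a = lam * p - mu) (hlam : 0 ≤ lam) (hmu : 0 ≤ mu)
    (hκ : 0 ≤ c - Aw * (lam + mu))
    (hD : (n : ℝ) < 2 * (lam + mu) + 4 - (c - Aw * (lam + mu)))
    (hnc : 4 < (n : ℝ) + c) (hDpos : 0 < lam + mu)
    {u v : Eu n → ℝ} (hucont : Continuous u) (hvcont : Continuous v)
    (hupos : ∀ x, 0 < u x) (hvpos : ∀ x, 0 < v x)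
    (hu : ContDiffOn ℝ 2 u {0}ᶜ) (hv : ContDiffOn ℝ 2 v {0}ᶜ)
    (hpdeU : ∀ x, x ≠ 0 → - Δ u x = ‖x‖ ^ Aw * v x ^ p)
    (hpdeV : ∀ x, x ≠ 0 → - Δ v x = ‖x‖ ^ Aw * u x ^ q) : False := by
  have hc' : ∀ {f : Eu n → ℝ}, ContDiffOn ℝ 2 f {0}ᶜ → ∀ x : Eu n, x ≠ 0 → ContDiffAt ℝ 2 f x :=
    fun hf x hx => hf.contDiffAt (isOpen_compl_singleton.mem_nhds hx)
  refine no_solution_of_ncert0 hn3 hcert hc0 hc ha hb hlam hmu hκ hD hnc hDpos hucont hvcont hupos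
    hvpos hu hv ?_ ?_
  · intro x hx
    rw [← laplacian_eq_sum_Hf (hc' hu x hx), ← hpdeU x hx, neg_neg]
  · intro x hx
    rw [← laplacian_eq_sum_Hf (hc' hv x hx), ← hpdeV x hx, neg_neg]


open ClosedForm

/-- **Nonexistence for equal negative weights, `n ≥ 4`.** -/
theorem no_solution_neg0 {n : ℕ} (hn : 4 ≤ n) {Aw p q : ℝ} (hA : Aw < 0) (hA2 : -2 < Aw)
    (hp : 0 < p) (hq : 0 < q) (hpq : 1 < p * q) {m : ℝ} (hm : m = 2 * ((n : ℝ) + Aw) / (2 + Aw))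
    (hreg : |cS m * p - 1| * |cS m * q - 1| < m ^ 2)
    {u v : Eu n → ℝ} (hucont : Continuous u) (hvcont : Continuous v)
    (hupos : ∀ x, 0 < u x) (hvpos : ∀ x, 0 < v x)
    (hu : ContDiffOn ℝ 2 u {0}ᶜ) (hv : ContDiffOn ℝ 2 v {0}ᶜ)
    (hpdeU : ∀ x, x ≠ 0 → - Laplacian.laplacian u x = ‖x‖ ^ Aw * v x ^ p)
    (hpdeV : ∀ x, x ≠ 0 → - Laplacian.laplacian v x = ‖x‖ ^ Aw * u x ^ q) : False := by
  have hnR : (4 : ℝ) ≤ n := by exact_mod_cast hn
  have h2w : 0 < 2 + Aw := by linarith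
  have hmn : (n : ℝ) ≤ m := by
    rw [hm, le_div_iff₀ h2w]
    nlinarith
  have hm5 : 4 ≤ m := hnR.trans hmn
  have hm0 : 0 < m := by linarith
  -- the choice of `g`
  obtain ⟨g, hg, hP, hQ⟩ : ∃ g : ℝ, 0 < g ∧ |cS m * p - 1| < m * g ∧ |cS m * q - 1| * g < m := by
    obtain ⟨P, hPd⟩ : ∃ P : ℝ, P = |cS m * p - 1| := ⟨_, rfl⟩
    obtain ⟨Q, hQd⟩ : ∃ Q : ℝ, Q = |cS m * q - 1| := ⟨_, rfl⟩
    rw [← hPd, ← hQd] at hreg ⊢
    have hP0 : 0 ≤ P := hPd ▸ abs_nonneg _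
    have hQ0 : 0 ≤ Q := hQd ▸ abs_nonneg _
    obtain ⟨g, hg1, hg2, hg3⟩ := exists_g (A2 := P) (B2 := Q) (P := m) (U := m) hP0 hQ0 hm0 hm0
      (by nlinarith)
    exact ⟨g, hg1, hg2, by rw [mul_comm]; exact hg3⟩
  obtain ⟨σ, h0, h1, hf1, hf2, _, hf5, hf6⟩ := exists_sigma m p q g (by linarith) hg hP hQ
  have hm2 : 2 < m := by linarith
  have hF0 := F0_pos hm2
  have hE0 := E0_pos hm2
  obtain ⟨E, hE⟩ : ∃ E : ℝ, E = (1 - σ) * E0 m := ⟨_, rfl⟩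
  obtain ⟨F, hF⟩ : ∃ F : ℝ, F = (1 - σ) * F0 m := ⟨_, rfl⟩
  have hEpos : 0 < E := by rw [hE]; exact mul_pos (by linarith) hE0
  have hFpos : 0 < F := by rw [hF]; exact mul_pos (by linarith) hF0
  have hθ : (1 + 2 / m) * E = F := by
    rw [hE, hF, ← id_theta hm2]
    ring
  obtain ⟨a, ha⟩ : ∃ a : ℝ, a = aS m := ⟨_, rfl⟩
  simp only [← hE, ← hF, ← ha] at hf1 hf2 hf5 hf6
  have ha0 : 0 ≤ a := by
    rw [ha]; unfold aS
    exact div_nonneg (by linarith) (by linarith)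
  have ha1 : a ≤ 1 := by
    rw [ha]; unfold aS
    rw [div_le_one (by linarith)]
    linarith
  have hgg : 0 < g ^ 2 := by positivity
  have h1A : 0 < pA (1 - 1 / m) a E := by
    have e : pA (1 - 1 / m) a E = E * (3 - a) - 1 / 4 * (a - 2 - 2 * E) ^ 2 * (1 - 1 / m) := by
      unfold pA; ring
    rw [e]; exact hf1
  have h1B : pB (1 - 1 / m) a E F ^ 2 < 4 * pA (1 - 1 / m) a E * pC (1 - 1 / m) a F := by
    have e1 : pA (1 - 1 / m) a E = E * (3 - a) - 1 / 4 * (a - 2 - 2 * E) ^ 2 * (1 - 1 / m) := by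
      unfold pA; ring
    have e2 : pC (1 - 1 / m) a F = F * (1 - a) - 1 / 4 * (a - 2 * F) ^ 2 * (1 - 1 / m) := by
      unfold pC; ring
    have e3 : pB (1 - 1 / m) a E F
        = F * (2 - a) - E * a - 1 / 2 * (a - 2 - 2 * E) * (a - 2 * F) * (1 - 1 / m) := by
      unfold pB; ring
    rw [e1, e2, e3]
    linarith only [hf2]
  have hL1 : ((2 / m) * F - (1 - 1 / m) * p) ^ 2 < 4 * ((1 + 2 / m) * E) * (g ^ 2 * F) := by
    rw [hθ]
    have e : (2 / m) * F - (1 - 1 / m) * p = 2 * F / m - (1 - 1 / m) * p := by ring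
    rw [e]
    linarith only [hf5]
  have hL2 : (g ^ 2 * ((2 / m) * F - (1 - 1 / m) * q)) ^ 2 < 4 * F * (g ^ 2 * ((1 + 2 / m) * E)) := by
    rw [hθ]
    have e : (2 / m) * F - (1 - 1 / m) * q = 2 * F / m - (1 - 1 / m) * q := by ring
    rw [e]
    linarith only [hf6]
  obtain ⟨Γ, η, c0, hc0, hcert⟩ := exists_ncert0 (n := (n : ℝ)) (n' := m) (p := p) (q := q) (a := a)
    (Aw := Aw) (g := g ^ 2) (E1 := E) (F1 := F) (E2 := E) (F2 := F) (by linarith) (by linarith) hA hA2 hm ha0 hgg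
    hEpos hEpos hFpos h1A h1B h1A h1B hL1 hL2
  -- the exponents
  have hd : 0 < p * q - 1 := by linarith
  obtain ⟨lam, hlam⟩ : ∃ lam : ℝ, lam = a * (1 + q) / (p * q - 1) := ⟨_, rfl⟩
  obtain ⟨mu, hmu⟩ : ∃ mu : ℝ, mu = a * (1 + p) / (p * q - 1) := ⟨_, rfl⟩
  have hlam0 : 0 ≤ lam := by rw [hlam]; positivity
  have hmu0 : 0 ≤ mu := by rw [hmu]; positivity
  have hcl := closure_ineq m p q (by linarith) hp hq hpq hreg
  rw [← ha] at hcl
  have hsum : lam + mu = a * (p + q + 2) / (p * q - 1) := by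
    rw [hlam, hmu, ← add_div]
    congr 1
    ring
  have hcl2 : m - 4 < 2 * (lam + mu) := by
    rw [hsum]
    have : 2 * (a * (p + q + 2) / (p * q - 1)) = 2 * a * (p + q + 2) / (p * q - 1) := by ring
    rw [this, lt_div_iff₀ hd]
    exact hcl
  have hmw : (2 + Aw) * m = 2 * ((n : ℝ) + Aw) := by
    rw [hm]; field_simp
  have hsum0 : 0 ≤ lam + mu := by positivity
  have ha0' : 0 < a := by
    rw [ha]; unfold aS
    exact div_pos (by linarith) (by linarith)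
  have hsumpos : 0 < lam + mu := by
    rw [hsum]
    have : 0 < p + q + 2 := by linarith
    positivity
  refine no_solution_of_ncert0_lap (n := n) (by omega) (c := -Aw) (lam := lam) (mu := mu) hcert hc0
    (by linarith) ?_ ?_ hlam0 hmu0 ?_ ?_ (by linarith) hsumpos hucont hvcont hupos hvpos hu hv hpdeU hpdeV
  · rw [hlam, hmu, div_mul_eq_mul_div, ← sub_div, eq_div_iff hd.ne']
    ring
  · rw [hlam, hmu, div_mul_eq_mul_div, ← sub_div, eq_div_iff hd.ne']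
    ring
  · have h3 := mul_nonneg (neg_nonneg.2 hA.le) (add_nonneg zero_le_one hsum0)
    linarith only [h3]
  · have h4 := mul_lt_mul_of_pos_left hcl2 h2w
    linarith only [h4, hmw]


end Vale.Agent.Lib.P100
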