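import Vale.Agent.Lib.P100.UPoly1
import Vale.Agent.Lib.P100.UPoly2
import Vale.Agent.Lib.P100.UPoly3
import Vale.Agent.Lib.P100.UPoly4

/-!
# P100: the uniform strip, algebraic identities (helper13). Generated.

`w = 1/ρ`, `T = 1 + w^2`, `a = 1 - 2 d / T - (9/20) w d^2`, `b = 1 - 2 d w^2 / T`.
-/

set_option maxHeartbeats 4000000

noncomputable section

namespace Vale.Agent.Lib.P100.US

def uT (w : ℝ) : ℝ := 1 + w ^ 2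
def uK (d : ℝ) : ℝ := 1 + d
def uH (d : ℝ) : ℝ := 1 + 2 * d
def uM1 (d w : ℝ) : ℝ := 1 + w ^ 2 + 2 * d * (1 - w ^ 2)
def uM2 (d w : ℝ) : ℝ := 1 + w ^ 2 - 2 * d * (1 - w ^ 2)
def uL (d : ℝ) : ℝ := 8 + d

def ua (d w : ℝ) : ℝ := (20 + 20 * w ^ 2 - 40 * d - 9 * d ^ 2 * w - 9 * d ^ 2 * w ^ 3) / (20 * (uT w))
def ub (d w : ℝ) : ℝ := (1 + w ^ 2 - 2 * d * w ^ 2) / ((uT w))
def uE1 (d w : ℝ) : ℝ := (20 + 20 * w ^ 2 + 60 * d - 20 * d * w ^ 2 + 40 * d ^ 2 + 9 * d ^ 3 * w + 9 * d ^ 3 * w ^ 3) / (40 * (uT w) * (uK d))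
def uE2 (d w : ℝ) : ℝ := (1 + w ^ 2 - d + 3 * d * w ^ 2 + 2 * d ^ 2 * w ^ 2) / (2 * (uT w) * (uK d))
def uF1 (d w : ℝ) : ℝ := (400 + 800 * w ^ 2 + 400 * w ^ 4 + 1200 * d + 1600 * d * w + 800 * d * w ^ 2 + 1600 * d * w ^ 3 - 400 * d * w ^ 4 + 440 * d ^ 2 + 4980 * d ^ 2 * w - 1520 * d ^ 2 * w ^ 2 - 2840 * d ^ 2 * w ^ 3 - 360 * d ^ 2 * w ^ 4 + 180 * d ^ 2 * w ^ 5 - 1080 * d ^ 3 + 3560 * d ^ 3 * w - 3040 * d ^ 3 * w ^ 2 + 360 * d ^ 3 * w ^ 3 - 1960 * d ^ 3 * w ^ 4 - 720 * d ^ 4 - 81 * d ^ 4 * w - 882 * d ^ 4 * w ^ 3 + 720 * d ^ 4 * w ^ 4 - 801 * d ^ 4 * w ^ 5 - 162 * d ^ 5 * w - 324 * d ^ 5 * w ^ 3 - 162 * d ^ 5 * w ^ 5) / (800 * (uT w) * (uK d) * (uM1 d w))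
def uF2 (d w : ℝ) : ℝ := (20 + 40 * w ^ 2 + 20 * w ^ 4 - 20 * d + 80 * d * w + 40 * d * w ^ 2 + 80 * d * w ^ 3 + 60 * d * w ^ 4 - 169 * d ^ 2 * w - 40 * d ^ 2 * w ^ 2 + 222 * d ^ 2 * w ^ 3 + 40 * d ^ 2 * w ^ 4 - 9 * d ^ 2 * w ^ 5 - 80 * d ^ 3 - 9 * d ^ 3 * w - 80 * d ^ 3 * w ^ 2 + 124 * d ^ 3 * w ^ 3 - 27 * d ^ 3 * w ^ 5 - 18 * d ^ 4 * w - 36 * d ^ 4 * w ^ 3 - 18 * d ^ 4 * w ^ 5) / (40 * (uT w) * (uK d) * (uM2 d w))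
def uf (d w : ℝ) : ℝ := (2 - 2 * w ^ 2 - d ^ 2 * w + d ^ 2 * w ^ 2 - 2 * d ^ 3 * w + 2 * d ^ 3 * w ^ 2) / (4 * (uH d) * w)
def uP (d w : ℝ) : ℝ := (8 + 17 * d + 16 * d * w) / (w * (uL d))
def uQ (d w : ℝ) : ℝ := (8 * w + 16 * d + 17 * d * w) / ((uL d))
def uka (d : ℝ) : ℝ := uK d / uH d
def uhh (d : ℝ) : ℝ := d / uH d
def uth (d : ℝ) : ℝ := (1 + 4 * d) / uH d
def uR1 (d w : ℝ) : ℝ := uE1 d w * (3 - ua d w) - uka d * (ua d w - 2 - 2 * uE1 d w) ^ 2 / 4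
def uR6 (d w : ℝ) : ℝ := uE2 d w * (3 - ub d w) - uka d * (ub d w - 2 - 2 * uE2 d w) ^ 2 / 4
def uR3 (d w : ℝ) : ℝ := uF1 d w * (1 - ub d w) + uF2 d w * (1 - ua d w)
  - ((ub d w - 2 * uF1 d w) ^ 2 + (ua d w - 2 * uF2 d w) ^ 2) / 8
def uR4 (d w : ℝ) : ℝ := -(((ub d w - 2 * uF1 d w) ^ 2 + (ua d w - 2 * uF2 d w) ^ 2) * (1 / 2 - uhh d) / 4)
def uDE (d w : ℝ) : ℝ := uR3 d w + uR4 d w - uR1 d w * (1 / w) ^ 2 - uR6 d w * w ^ 2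
def uL1 (d w p : ℝ) : ℝ := uth d * uE1 d w * (uF2 d w + uf d w * (ub d w + p - 1))
  - ((2 * uhh d * uF1 d w - uka d * p + uf d w * (ua d w - 1)) / 2) ^ 2
def uL2 (d w q : ℝ) : ℝ := (uF1 d w + (-uf d w) * (ua d w + q - 1)) * (uth d * uE2 d w)
  - ((2 * uhh d * uF2 d w - uka d * q + (-uf d w) * (ub d w - 1)) / 2) ^ 2
def uEX (d w : ℝ) : ℝ := ((8 + d) * (ua d w + ub d w * w) - 8 * (1 - 2 * d) * (1 + w)) / d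

theorem R1_eq {d w : ℝ}  (hw : w ≠ 0) (hT : uT w ≠ 0) (hK : uK d ≠ 0) (hH : uH d ≠ 0) (hM1 : uM1 d w ≠ 0) (hM2 : uM2 d w ≠ 0) (hL : uL d ≠ 0) :
    uR1 d w = (d ^ 1 * w ^ 1 * pR1 d w) / (1600 * (uT w) ^ 2 * (uK d) * (uH d)) := by
  simp only [uR1, ua, ub, uE1, uE2, uF1, uF2, uf, uka, uhh, uth, pR1, bR10, bR11, bR12, bR13, bR14]
  field_simp
  simp only [uT, uK, uH, uM1, uM2, uL]
  ring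

theorem R6_eq {d w : ℝ}  (hw : w ≠ 0) (hT : uT w ≠ 0) (hK : uK d ≠ 0) (hH : uH d ≠ 0) (hM1 : uM1 d w ≠ 0) (hM2 : uM2 d w ≠ 0) (hL : uL d ≠ 0) :
    uR6 d w = (d ^ 1 * pR6 d w) / ((uT w) ^ 2 * (uK d) * (uH d)) := by
  simp only [uR6, ua, ub, uE1, uE2, uF1, uF2, uf, uka, uhh, uth, pR6, bR60, bR61, bR62]
  field_simp
  simp only [uT, uK, uH, uM1, uM2, uL]
  ring

theorem R3_eq {d w : ℝ}  (hw : w ≠ 0) (hT : uT w ≠ 0) (hK : uK d ≠ 0) (hH : uH d ≠ 0) (hM1 : uM1 d w ≠ 0) (hM2 : uM2 d w ≠ 0) (hL : uL d ≠ 0) :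
    uR3 d w = (d ^ 1 * pR3 d w) / (1280000 * (uT w) ^ 2 * (uK d) ^ 2 * (uM1 d w) ^ 2 * (uM2 d w) ^ 2) := by
  simp only [uR3, ua, ub, uE1, uE2, uF1, uF2, uf, uka, uhh, uth, pR3, bR30, bR31, bR32, bR33, bR34, bR35, bR36, bR37, bR38, bR39, bR310, bR311]
  field_simp
  simp only [uT, uK, uH, uM1, uM2, uL]
  ring

theorem DE_eq {d w : ℝ}  (hw : w ≠ 0) (hT : uT w ≠ 0) (hK : uK d ≠ 0) (hH : uH d ≠ 0) (hM1 : uM1 d w ≠ 0) (hM2 : uM2 d w ≠ 0) (hL : uL d ≠ 0) :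
    uDE d w = (d ^ 2 * pDE d w) / (640000 * (uT w) * (uK d) * w * (uM1 d w) ^ 2 * (uM2 d w) ^ 2) := by
  simp only [uDE, uR1, uR6, uR3, uR4, ua, ub, uE1, uE2, uF1, uF2, uf, uka, uhh, uth, pDE, bDE0, bDE1, bDE2, bDE3, bDE4, bDE5, bDE6, bDE7, bDE8, bDE9]
  field_simp
  simp only [uT, uK, uH, uM1, uM2, uL]
  ring

theorem LP_eq {d w : ℝ}  (hw : w ≠ 0) (hT : uT w ≠ 0) (hK : uK d ≠ 0) (hH : uH d ≠ 0) (hM1 : uM1 d w ≠ 0) (hM2 : uM2 d w ≠ 0) (hL : uL d ≠ 0) :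
    uL1 d w (uP d w) = (d ^ 2 * pLP d w) / (640000 * (uT w) ^ 2 * (uK d) ^ 2 * (uH d) ^ 2 * w ^ 2 * (uM1 d w) ^ 2 * (uM2 d w) * (uL d) ^ 2) := by
  simp only [uL1, uP, ua, ub, uE1, uE2, uF1, uF2, uf, uka, uhh, uth, pLP, bLP0, bLP1, bLP2, bLP3, bLP4, bLP5, bLP6, bLP7, bLP8, bLP9, bLP10, bLP11, bLP12, bLP13, bLP14, bLP15]
  field_simp
  simp only [uT, uK, uH, uM1, uM2, uL]
  ring

theorem LY_eq {d w : ℝ}  (hw : w ≠ 0) (hT : uT w ≠ 0) (hK : uK d ≠ 0) (hH : uH d ≠ 0) (hM1 : uM1 d w ≠ 0) (hM2 : uM2 d w ≠ 0) (hL : uL d ≠ 0) :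
    uL1 d w 0 = (pLY d w) / (640000 * (uT w) ^ 2 * (uK d) ^ 2 * (uH d) ^ 2 * w ^ 2 * (uM1 d w) ^ 2 * (uM2 d w)) := by
  simp only [uL1, ua, ub, uE1, uE2, uF1, uF2, uf, uka, uhh, uth, pLY, bLY0, bLY1, bLY2, bLY3, bLY4, bLY5, bLY6, bLY7, bLY8, bLY9, bLY10, bLY11, bLY12, bLY13, bLY14, bLY15]
  field_simp
  simp only [uT, uK, uH, uM1, uM2, uL]
  ring

theorem LQ_eq {d w : ℝ}  (hw : w ≠ 0) (hT : uT w ≠ 0) (hK : uK d ≠ 0) (hH : uH d ≠ 0) (hM1 : uM1 d w ≠ 0) (hM2 : uM2 d w ≠ 0) (hL : uL d ≠ 0) :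
    uL2 d w (uQ d w) = (d ^ 2 * pLQ d w) / (1600 * (uT w) ^ 2 * (uK d) ^ 2 * (uH d) ^ 2 * w * (uM1 d w) * (uM2 d w) ^ 2 * (uL d) ^ 2) := by
  simp only [uL2, uQ, ua, ub, uE1, uE2, uF1, uF2, uf, uka, uhh, uth, pLQ, bLQ0, bLQ1, bLQ2, bLQ3, bLQ4, bLQ5, bLQ6, bLQ7, bLQ8, bLQ9, bLQ10, bLQ11, bLQ12, bLQ13]
  field_simp
  simp only [uT, uK, uH, uM1, uM2, uL]
  ring

theorem LZ_eq {d w : ℝ}  (hw : w ≠ 0) (hT : uT w ≠ 0) (hK : uK d ≠ 0) (hH : uH d ≠ 0) (hM1 : uM1 d w ≠ 0) (hM2 : uM2 d w ≠ 0) (hL : uL d ≠ 0) :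
    uL2 d w 0 = (pLZ d w) / (1600 * (uT w) ^ 2 * (uK d) ^ 2 * (uH d) ^ 2 * w * (uM1 d w) * (uM2 d w) ^ 2) := by
  simp only [uL2, ua, ub, uE1, uE2, uF1, uF2, uf, uka, uhh, uth, pLZ, bLZ0, bLZ1, bLZ2, bLZ3, bLZ4, bLZ5, bLZ6, bLZ7, bLZ8, bLZ9, bLZ10, bLZ11, bLZ12, bLZ13]
  field_simp
  simp only [uT, uK, uH, uM1, uM2, uL]
  ring

theorem EX_eq {d w : ℝ} (hd : d ≠ 0) (hw : w ≠ 0) (hT : uT w ≠ 0) (hK : uK d ≠ 0) (hH : uH d ≠ 0) (hM1 : uM1 d w ≠ 0) (hM2 : uM2 d w ≠ 0) (hL : uL d ≠ 0) :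
    uEX d w = (pEX d w) / (20 * (uT w)) := by
  simp only [uEX, ua, ub, uE1, uE2, uF1, uF2, uf, uka, uhh, uth, pEX, bEX0, bEX1, bEX2]
  field_simp
  simp only [uT, uK, uH, uM1, uM2, uL]
  ring

theorem rel_xz {d w : ℝ} (hw : w ≠ 0) (hT : uT w ≠ 0) (hK : uK d ≠ 0) (hH : uH d ≠ 0) (hM1 : uM1 d w ≠ 0) (hM2 : uM2 d w ≠ 0) (hL : uL d ≠ 0) :
    uF1 d w * (2 - ua d w) - uE1 d w * ub d w
      - uka d * (ua d w - 2 - 2 * uE1 d w) * (ub d w - 2 * uF1 d w) / 2 = -2 * (1 / w) * uR1 d w := by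
  simp only [uR1, ua, ub, uE1, uE2, uF1, uF2, uf, uka, uhh, uth]
  field_simp
  simp only [uT, uK, uH, uM1, uM2, uL]
  ring

theorem rel_yz {d w : ℝ} (hw : w ≠ 0) (hT : uT w ≠ 0) (hK : uK d ≠ 0) (hH : uH d ≠ 0) (hM1 : uM1 d w ≠ 0) (hM2 : uM2 d w ≠ 0) (hL : uL d ≠ 0) :
    uF2 d w * (2 - ub d w) - uE2 d w * ua d w
      - uka d * (ub d w - 2 - 2 * uE2 d w) * (ua d w - 2 * uF2 d w) / 2 = -2 * w * uR6 d w := by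
  simp only [uR6, ua, ub, uE1, uE2, uF1, uF2, uf, uka, uhh, uth]
  field_simp
  simp only [uT, uK, uH, uM1, uM2, uL]
  ring

theorem E1_eq {d w : ℝ} : uE1 d w = (pE1 d w) / (40 * (uT w) * (uK d)) := by
  simp only [uE1, pE1, bE10, bE11, bE12, bE13]
  congr 1
  ring

theorem E2_eq {d w : ℝ} : uE2 d w = (pE2 d w) / (2 * (uT w) * (uK d)) := by
  simp only [uE2, pE2, bE20, bE21, bE22]
  congr 1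
  ring


end Vale.Agent.Lib.P100.US
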