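import Vale.Agent.Lib.P100.WFinal
import Vale.Agent.Lib.P100.CutOffPoly

/-!
# P100 weighted system, weights of any sign: from a pointwise certificate to nonexistence.

The weight is still `W = u^a v^b`, without a power of `|x|`; in terms of `s, t, w = |ξ|²` it is
`s^lam t^mu w^(sg/2)`, `sg = A lam + B mu`, so that for `sg < 0` there is a polynomial factor
`|x|^(-sg)` in the cut-off bound (`cutoff_false_poly`).
-/

open scoped BigOperators
open MeasureTheory Filter Topology Set Metric Module InnerProductSpace Laplacian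

set_option linter.unusedSimpArgs false

noncomputable section

namespace Vale.Agent.Lib.P100

variable {n : ℕ}

/-- **Certificate implies nonexistence for the weighted system**, literal class of the problem. -/
theorem no_solution_of_wcert_gen (hn4 : 4 < n) {p q a b lam mu c0 A B : ℝ} {c : Fin 17 → ℝ}
    (hcert : WCertif n p q a b A B c c0) (hc0 : 0 < c0)
    (ha : a = mu * q - lam) (hb : b = lam * p - mu) (hlam : 0 ≤ lam) (hmu : 0 ≤ mu)
    (hD : (n : ℝ) < 2 * (lam + mu) + A * lam + B * mu + 4)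
    {u v : Eu n → ℝ} (hucont : Continuous u) (hvcont : Continuous v)
    (hupos : ∀ x, 0 < u x) (hvpos : ∀ x, 0 < v x)
    (hu : ContDiffOn ℝ 2 u {0}ᶜ) (hv : ContDiffOn ℝ 2 v {0}ᶜ)
    (hpdeU : ∀ x, x ≠ 0 → ∑ i, Hf u i i x = - (‖x‖ ^ A * v x ^ p))
    (hpdeV : ∀ x, x ≠ 0 → ∑ i, Hf v i i x = - (‖x‖ ^ B * u x ^ q)) : False := by
  have hn4R : (4 : ℝ) < n := by exact_mod_cast hn4
  have hn : (n : ℝ) ≠ 0 := by linarith
  obtain ⟨sg, hsg⟩ : ∃ sg, sg = A * lam + B * mu := ⟨_, rfl⟩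
  obtain ⟨D, hDdef⟩ : ∃ D, D = lam + mu + max 0 sg / 2 := ⟨_, rfl⟩
  obtain ⟨κ, hκdef⟩ : ∃ κ, κ = max 0 (-sg) := ⟨_, rfl⟩
  have hκ0 : 0 ≤ κ := by rw [hκdef]; exact le_max_left _ _
  have hmax : max 0 sg - max 0 (-sg) = sg := by
    rcases le_total 0 sg with h | h
    · rw [max_eq_right h, max_eq_left (by linarith)]; ring
    · rw [max_eq_left h, max_eq_right (by linarith)]; ring
  have hD' : (n : ℝ) < 2 * D + 4 - κ := by
    rw [hDdef, hκdef]
    have : 2 * (lam + mu + max 0 sg / 2) + 4 - max 0 (-sg) = 2 * (lam + mu) + sg + 4 := by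
      linarith
    rw [this, hsg]
    linarith
  obtain ⟨Ω, hΩdef⟩ : ∃ Ω : Set (Eu n), Ω = {0}ᶜ := ⟨_, rfl⟩
  have hΩ : IsOpen Ω := by rw [hΩdef]; exact isOpen_compl_singleton
  rw [← hΩdef] at hu hv
  have hΩne : ∀ x ∈ Ω, x ≠ 0 := fun x hx => by rwa [hΩdef] at hx
  have hneΩ : ∀ x : Eu n, x ≠ 0 → x ∈ Ω := fun x hx => by rwa [hΩdef]
  have hLoc : ∀ x ∈ Ω, LocW u v A B p q x := fun x hx =>
    ⟨hu.contDiffAt (hΩ.mem_nhds hx), hv.contDiffAt (hΩ.mem_nhds hx), hupos x, hvpos x,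
      hΩne x hx, hpdeU x (hΩne x hx), hpdeV x (hΩne x hx), hn⟩
  have huposΩ : ∀ x ∈ Ω, 0 < u x := fun x _ => hupos x
  have hvposΩ : ∀ x ∈ Ω, 0 < v x := fun x _ => hvpos x
  -- the weight
  have hWcont : Continuous (Wf u v a b) :=
    (hucont.rpow_const fun x => Or.inl (hupos x).ne').mul
      (hvcont.rpow_const fun x => Or.inl (hvpos x).ne')
  have hWpos : ∀ x, 0 < Wf u v a b x := fun x =>
    mul_pos (Real.rpow_pos_of_pos (hupos x) a) (Real.rpow_pos_of_pos (hvpos x) b)
  obtain ⟨Wm, hWm⟩ := (isCompact_closedBall (0 : Eu n) 1).bddAbove_image hWcont.continuousOn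
  have hWm' : ∀ x : Eu n, x ≠ 0 → ‖x‖ ≤ 1 → Wf u v a b x ≤ Wm := fun x _ hx =>
    hWm ⟨x, by simpa using hx, rfl⟩
  have hSpos : ∀ x : Eu n, x ≠ 0 → 0 < Sr A p v x / u x := fun x hx =>
    div_pos (mul_pos (Real.rpow_pos_of_pos (norm_pos_iff.2 hx) _)
      (Real.rpow_pos_of_pos (hvpos x) p)) (hupos x)
  have hTpos : ∀ x : Eu n, x ≠ 0 → 0 < Sr B q u x / v x := fun x hx =>
    div_pos (mul_pos (Real.rpow_pos_of_pos (norm_pos_iff.2 hx) _)
      (Real.rpow_pos_of_pos (hupos x) q)) (hvpos x)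
  have hwpos : ∀ x : Eu n, x ≠ 0 → 0 < dot (fun i => Xi i x) (fun i => Xi i x) := fun x hx => by
    rw [dot_Xi x hx]
    have : 0 < ‖x‖ := norm_pos_iff.2 hx
    positivity
  have hreal : ∀ x ∈ Ω, WAtoms.Realizable n (watAt u v A B p q x) := by
    intro x hx
    have hJ := (hLoc x hx).jet a b
    exact watomsOf_realizable hn hJ.Usymm hJ.Vsymm hJ.trU hJ.trV (hSpos x (hΩne x hx))
      (hTpos x (hΩne x hx))
  have hfu : ContinuousOn (Sr A p v) Ω := (contDiffOn_Sr hΩne hv hvposΩ A p).continuousOn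
  have hfv : ContinuousOn (Sr B q u) Ω := (contDiffOn_Sr hΩne hu huposΩ B q).continuousOn
  have hU1 : ∀ i j, ContinuousOn (Ug u (Sr A p v) i j) Ω :=
    contOn_Ug hΩ hu huposΩ hn hfu
  have hV1 : ∀ i j, ContinuousOn (Ug v (Sr B q u) i j) Ω :=
    contOn_Ug hΩ hv hvposΩ hn hfv
  have hX1 : ∀ i, ContinuousOn (Xf u i) Ω := fun i => (contDiffOn_Xf hΩ hu huposΩ i).continuousOn
  have hY1 : ∀ i, ContinuousOn (Xf v i) Ω := fun i => (contDiffOn_Xf hΩ hv hvposΩ i).continuousOn
  have hZ1 : ∀ i, ContinuousOn (Xi (n := n) i) Ω := fun i => (contDiffOn_Xi hΩne i).continuousOn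
  have hs1 : ContinuousOn (fun y => Sr A p v y / u y) Ω :=
    hfu.div hu.continuousOn fun x hx => (hupos x).ne'
  have ht1 : ContinuousOn (fun y => Sr B q u y / v y) Ω :=
    hfv.div hv.continuousOn fun x hx => (hvpos x).ne'
  have hip : ∀ {A B : Fin n → Fin n → Eu n → ℝ}, (∀ i j, ContinuousOn (A i j) Ω) →
      (∀ i j, ContinuousOn (B i j) Ω) →
      ContinuousOn (fun x => ip (fun i j => A i j x) (fun i j => B i j x)) Ω :=
    fun hA hB => continuousOn_finsetSum _ fun i _ => continuousOn_finsetSum _ fun j _ =>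
      (hA i j).mul (hB i j)
  have hBB : ∀ {A : Fin n → Fin n → Eu n → ℝ} {P R : Fin n → Eu n → ℝ},
      (∀ i j, ContinuousOn (A i j) Ω) → (∀ i, ContinuousOn (P i) Ω) → (∀ i, ContinuousOn (R i) Ω) →
      ContinuousOn (fun x => BB (fun i j => A i j x) (fun i => P i x) (fun i => R i x)) Ω :=
    fun hA hP hR => continuousOn_finsetSum _ fun i _ => continuousOn_finsetSum _ fun j _ =>
      (hA i j).mul ((hP i).mul (hR j))
  have hdot : ∀ {P R : Fin n → Eu n → ℝ}, (∀ i, ContinuousOn (P i) Ω) →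
      (∀ i, ContinuousOn (R i) Ω) → ContinuousOn (fun x => dot (fun i => P i x) (fun i => R i x)) Ω :=
    fun hP hR => continuousOn_finsetSum _ fun i _ => (hP i).mul (hR i)
  have a1 := hip hU1 hU1
  have a2 := hip hU1 hV1
  have a3 := hip hV1 hV1
  have a4 := hBB hU1 hX1 hX1
  have a5 := hBB hU1 hX1 hY1
  have a6 := hBB hU1 hY1 hY1
  have a7 := hBB hV1 hX1 hX1
  have a8 := hBB hV1 hX1 hY1
  have a9 := hBB hV1 hY1 hY1
  have a10 := hdot hX1 hX1
  have a11 := hdot hX1 hY1
  have a12 := hdot hY1 hY1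
  have a15 := hdot hX1 hZ1
  have a16 := hdot hY1 hZ1
  have a17 := hdot hZ1 hZ1
  have hDc : ∀ k, ContinuousOn (fun x => WAtoms.D n p q a b A B (watAt u v A B p q x) k) Ω := fun k =>
    continuousOn_WD_aux a1 a2 a3 a4 a5 a6 a7 a8 a9 a10 a11 a12 hs1 ht1 a15 a16 a17 n p q a b A B k
  have hEc : ContinuousOn (fun x => (watAt u v A B p q x).EW) Ω :=
    ((((((a1.add a3).add (a10.pow 2)).add (a12.pow 2)).add (hs1.pow 2)).add (ht1.pow 2))).add
      (a17.pow 2)
  have hE0 : ∀ x, 0 ≤ (watAt u v A B p q x).EW := fun x => EW_nonneg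
  -- the field
  obtain ⟨Z, hZdef⟩ : ∃ Z : Fin n → Eu n → ℝ, Z = fun i y =>
      Wf u v a b y * ∑ k, c k * WFlds u v A B p q k i y := ⟨_, rfl⟩
  have hFc := contOn_WFlds (A := A) (B := B) (p := p) (q := q) hΩ hΩne hu hv huposΩ hvposΩ hn
  have hZc : ∀ i, ContinuousOn (Z i) Ω := by
    intro i
    rw [hZdef]
    exact hWcont.continuousOn.mul (continuousOn_finsetSum _ fun k _ =>
      continuousOn_const.mul (hFc k i))
  have hZb : ∀ i x, x ≠ 0 → |Z i x| ≤ (∑ k, |c k|) *
      (Wf u v a b x * (watAt u v A B p q x).EW ^ (3 / 4 : ℝ)) := by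
    intro i x _
    rw [hZdef]
    simp only
    rw [abs_mul, abs_of_pos (hWpos x)]
    have h1 : |∑ k, c k * WFlds u v A B p q k i x| ≤
        (∑ k, |c k|) * (watAt u v A B p q x).EW ^ (3 / 4 : ℝ) := by
      refine (Finset.abs_sum_le_sum_abs _ _).trans ?_
      rw [Finset.sum_mul]
      refine Finset.sum_le_sum fun k _ => ?_
      rw [abs_mul]
      exact mul_le_mul_of_nonneg_left (abs_WF_le k i x) (abs_nonneg _)
    have h2 := mul_le_mul_of_nonneg_left h1 (hWpos x).le
    linarith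
  have hWE : ∀ x, x ≠ 0 → Wf u v a b x ≤ 1 * ‖x‖ ^ κ * (watAt u v A B p q x).EW ^ (D / 2) := by
    intro x hx
    have hxn : 0 < ‖x‖ := norm_pos_iff.2 hx
    have hw1 := hwpos x hx
    have hsplit : (dot (fun i => Xi i x) (fun i => Xi i x)) ^ ((A * lam + B * mu) / 2)
        = ‖x‖ ^ κ * (dot (fun i => Xi i x) (fun i => Xi i x)) ^ (max 0 sg / 2) := by
      have e1 : ‖x‖ ^ κ = (dot (fun i => Xi i x) (fun i => Xi i x)) ^ (-κ / 2) := by
        rw [dot_Xi x hx, one_div, Real.inv_rpow (by positivity), ← Real.rpow_natCast,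
          ← Real.rpow_mul hxn.le, ← Real.rpow_neg hxn.le]
        congr 1
        push_cast
        ring
      rw [e1, ← Real.rpow_add hw1]
      congr 1
      rw [hκdef, ← hsg]
      linarith
    rw [one_mul, Wf_eq_stw hx (hupos x) (hvpos x) ha hb, hsplit]
    have h6 := stw_pow_le (U := fun i j => Ug u (Sr A p v) i j x) (V := fun i j => Ug v (Sr B q u) i j x)
      (X := fun i => Xf u i x) (Y := fun i => Xf v i x) (Z := fun i => Xi i x)
      (hSpos x hx) (hTpos x hx) (hwpos x hx) hlam hmu (div_nonneg (le_max_left 0 sg) zero_le_two)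
    have hk : 0 < ‖x‖ ^ κ := Real.rpow_pos_of_pos hxn _
    have e2 : (lam + mu + max 0 sg / 2) / 2 = D / 2 := by rw [hDdef]
    rw [e2] at h6
    calc (Sr A p v x / u x) ^ lam * (Sr B q u x / v x) ^ mu *
          (‖x‖ ^ κ * (dot (fun i => Xi i x) (fun i => Xi i x)) ^ (max 0 sg / 2))
        = ‖x‖ ^ κ * ((Sr A p v x / u x) ^ lam * (Sr B q u x / v x) ^ mu *
          (dot (fun i => Xi i x) (fun i => Xi i x)) ^ (max 0 sg / 2)) := by ring
      _ ≤ ‖x‖ ^ κ * (watAt u v A B p q x).EW ^ (D / 2) :=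
          mul_le_mul_of_nonneg_left h6 hk.le
  -- the weak inequality
  have hweak : ∀ φ : Eu n → ℝ, ContDiff ℝ 1 φ → HasCompactSupport φ → (∀ x, 0 ≤ φ x) →
      0 ∉ tsupport φ →
      c0 * ∫ x, φ x * (Wf u v a b x * (watAt u v A B p q x).EW) ≤
        - ∑ i, ∫ x, fderiv ℝ φ x (ee i) * Z i x := by
    intro φ hφ hφc hφ0 h0
    have hφΩ : tsupport φ ⊆ Ω := by
      intro y hy
      refine hneΩ y ?_
      rintro rfl
      exact h0 hy
    have hdφ : ∀ i, Continuous (pd i φ) := fun i =>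
      (hφ.continuous_fderiv one_ne_zero).clm_apply continuous_const
    have hdφs : ∀ i, HasCompactSupport (pd i φ) := fun i => hφc.fderiv_apply (𝕜 := ℝ) (ee i)
    have hdφΩ : ∀ i, tsupport (pd i φ) ⊆ Ω := fun i =>
      (tsupport_fderiv_apply_subset ℝ (ee i)).trans hφΩ
    have hint : ∀ k i, Integrable fun x => pd i φ x * (Wf u v a b x * WFlds u v A B p q k i x) := by
      intro k i
      have := integrable_mul_of_tsupport hΩ (hWcont.continuousOn.mul (hFc k i)) (hdφ i) (hdφs i)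
        (hdφΩ i)
      exact this.congr (Eventually.of_forall fun x => by simp only [Pi.mul_apply]; ring)
    have h1 : ∀ i, ∫ x, fderiv ℝ φ x (ee i) * Z i x =
        ∑ k, c k * ∫ x, pd i φ x * (Wf u v a b x * WFlds u v A B p q k i x) := by
      intro i
      simp_rw [← integral_const_mul]
      rw [← integral_finsetSum _ (fun k _ => (hint k i).const_mul _)]
      refine integral_congr_ae (Eventually.of_forall fun x => ?_)
      rw [hZdef]
      show fderiv ℝ φ x (ee i) * (Wf u v a b x * ∑ k, c k * WFlds u v A B p q k i x) =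
        ∑ k, c k * (pd i φ x * (Wf u v a b x * WFlds u v A B p q k i x))
      rw [Finset.mul_sum, Finset.mul_sum]
      refine Finset.sum_congr rfl fun k _ => ?_
      simp only [pd]
      ring
    simp_rw [h1]
    rw [Finset.sum_comm]
    simp_rw [← Finset.mul_sum]
    simp_rw [weak_WFlds hΩ hΩne a b hu hv hLoc hn hφ hφc hφΩ]
    have hintD : ∀ k, Integrable fun x =>
        φ x * (Wf u v a b x * WAtoms.D n p q a b A B (watAt u v A B p q x) k) := by
      intro k
      have := integrable_mul_of_tsupport hΩ (hWcont.continuousOn.mul (hDc k)) hφ.continuous hφc hφΩ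
      exact this.congr (Eventually.of_forall fun x => mul_comm _ _)
    have hintE : Integrable fun x => φ x * (Wf u v a b x * (watAt u v A B p q x).EW) := by
      have := integrable_mul_of_tsupport hΩ (hWcont.continuousOn.mul hEc) hφ.continuous hφc hφΩ
      exact this.congr (Eventually.of_forall fun x => mul_comm _ _)
    have h2 : - ∑ k, c k * - ∫ x, φ x * (Wf u v a b x * WAtoms.D n p q a b A B (watAt u v A B p q x) k) =
        ∫ x, φ x * (Wf u v a b x * WAtoms.Q n p q a b A B c (watAt u v A B p q x)) := by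
      simp only [mul_neg, Finset.sum_neg_distrib, neg_neg]
      simp_rw [← integral_const_mul]
      rw [← integral_finsetSum _ (fun k _ => (hintD k).const_mul _)]
      refine integral_congr_ae (Eventually.of_forall fun x => ?_)
      show ∑ k, c k * (φ x * (Wf u v a b x * WAtoms.D n p q a b A B (watAt u v A B p q x) k)) =
        φ x * (Wf u v a b x * WAtoms.Q n p q a b A B c (watAt u v A B p q x))
      simp only [WAtoms.Q]
      rw [Finset.mul_sum, Finset.mul_sum]
      refine Finset.sum_congr rfl fun k _ => ?_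
      ring
    rw [h2, ← integral_const_mul]
    refine integral_mono (hintE.const_mul _) ?_ ?_
    · have hQc : ContinuousOn (fun x => WAtoms.Q n p q a b A B c (watAt u v A B p q x)) Ω :=
        continuousOn_finsetSum Finset.univ fun k _ => continuousOn_const.mul (hDc k)
      have := integrable_mul_of_tsupport hΩ (hWcont.continuousOn.mul hQc) hφ.continuous hφc hφΩ
      exact this.congr (Eventually.of_forall fun x => mul_comm _ _)
    · intro x
      by_cases hx : x ∈ Ω
      · have h3 := hcert _ (hreal x hx)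
        have h4 : 0 ≤ φ x * Wf u v a b x := mul_nonneg (hφ0 x) (hWpos x).le
        have h5 := mul_le_mul_of_nonneg_left h3 h4
        show c0 * (φ x * (Wf u v a b x * (watAt u v A B p q x).EW)) ≤
          φ x * (Wf u v a b x * WAtoms.Q n p q a b A B c (watAt u v A B p q x))
        linarith
      · have h0' : φ x = 0 := image_eq_zero_of_notMem_tsupport (fun h => hx (hφΩ h))
        show c0 * (φ x * (Wf u v a b x * (watAt u v A B p q x).EW)) ≤
          φ x * (Wf u v a b x * WAtoms.Q n p q a b A B c (watAt u v A B p q x))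
        simp [h0']
  have hfr : finrank ℝ (Eu n) = n := finrank_euclideanSpace_fin
  have hDpos : 0 < D := by
    have h0 : 0 ≤ max 0 sg := le_max_left _ _
    have h1 : 0 ≤ κ := hκ0
    have h2 : (4 : ℝ) < n := hn4R
    rw [hDdef] at hD' ⊢
    by_contra hneg
    have h3 : lam + mu + max 0 sg / 2 ≤ 0 := not_lt.mp hneg
    linarith
  refine cutoff_false_poly (V := Eu n) (fun i : Fin n => ee i) Z (Wf u v a b)
    (fun x => (watAt u v A B p q x).EW) (c0 := c0) (C := ∑ k, |c k|) (K := 1)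
    (D := D) (κ := κ) (Wm := Wm)
    ?_ ?_ ?_ ?_ ?_ hc0 ?_ zero_le_one hDpos hκ0 hWm' ?_ ?_ hZb hWE hweak
  · intro i
    rw [← hΩdef]
    exact hZc i
  · exact hWcont.continuousOn
  · rw [← hΩdef]
    exact hEc
  · exact fun x _ => hWpos x
  · exact fun x _ => hE0 x
  · exact Finset.sum_nonneg fun k _ => abs_nonneg _
  · rw [hfr]
    exact hn4
  · rw [hfr]
    exact hD'

/-- The same, with Mathlib's Laplacian. -/
theorem no_solution_of_wcert_gen_lap (hn4 : 4 < n) {p q a b lam mu c0 A B : ℝ} {c : Fin 17 → ℝ}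
    (hcert : WCertif n p q a b A B c c0) (hc0 : 0 < c0)
    (ha : a = mu * q - lam) (hb : b = lam * p - mu) (hlam : 0 ≤ lam) (hmu : 0 ≤ mu)
    (hD : (n : ℝ) < 2 * (lam + mu) + A * lam + B * mu + 4)
    {u v : Eu n → ℝ} (hucont : Continuous u) (hvcont : Continuous v)
    (hupos : ∀ x, 0 < u x) (hvpos : ∀ x, 0 < v x)
    (hu : ContDiffOn ℝ 2 u {0}ᶜ) (hv : ContDiffOn ℝ 2 v {0}ᶜ)
    (hpdeU : ∀ x, x ≠ 0 → - Δ u x = ‖x‖ ^ A * v x ^ p)
    (hpdeV : ∀ x, x ≠ 0 → - Δ v x = ‖x‖ ^ B * u x ^ q) : False := by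
  have hc : ∀ {f : Eu n → ℝ}, ContDiffOn ℝ 2 f {0}ᶜ → ∀ x : Eu n, x ≠ 0 → ContDiffAt ℝ 2 f x :=
    fun hf x hx => hf.contDiffAt (isOpen_compl_singleton.mem_nhds hx)
  refine no_solution_of_wcert_gen hn4 hcert hc0 ha hb hlam hmu hD hucont hvcont hupos hvpos hu hv
    ?_ ?_
  · intro x hx
    rw [← laplacian_eq_sum_Hf (hc hu x hx), ← hpdeU x hx, neg_neg]
  · intro x hx
    rw [← laplacian_eq_sum_Hf (hc hv x hx), ← hpdeV x hx, neg_neg]



end Vale.Agent.Lib.P100
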